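import Mathlib

/-!
# Abstract small phase space with the Euler field: data for the genus-one computation
-/

namespace Vale.Agent.P269.G1

open Finset.HasAntidiagonal (antidiagonal)

/-- Vector fields `A` (a commutative ring under the quantum product) over functions `R`, even
operators `O` on the whole cohomology, with the flat connection, the grading and the Euler
field. -/
structure Frob (R A O : Type*) [CommRing R] [Algebra ℚ R] [CommRing A] [Algebra R A]
    [Ring O] [Algebra R O] where
  /-- derivative of a function along a vector field -/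
  der : A → R → R
  der_add_left : ∀ x y f, der (x + y) f = der x f + der y f
  der_smul_left : ∀ (g : R) x f, der (g • x) f = g * der x f
  der_add : ∀ x f g, der x (f + g) = der x f + der x g
  der_mul : ∀ x f g, der x (f * g) = der x f * g + f * der x g
  der_rat : ∀ x (c : ℚ) f, der x (c • f) = c • der x f
  /-- covariant derivative of vector fields -/
  nab : A → A → A
  nab_add_left : ∀ x y z, nab (x + y) z = nab x z + nab y z
  nab_smul_left : ∀ (g : R) x z, nab (g • x) z = g • nab x z
  nab_add : ∀ x y z, nab x (y + z) = nab x y + nab x z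
  nab_smul : ∀ x (g : R) z, nab x (g • z) = der x g • z + g • nab x z
  nab_one : ∀ x, nab x 1 = 0
  der_comm : ∀ x y f, der x (der y f) - der y (der x f) = der (nab x y - nab y x) f
  /-- the grading operator, `d 1 = 0` -/
  d : A →ₗ[R] A
  d_one : d 1 = 0
  nab_d : ∀ x y, nab x (d y) = d (nab x y)
  /-- the Euler field -/
  E : A
  nab_E : ∀ x, nab x E = x - d x
  c4_symm : ∀ x y z, nab x (y * z) - nab x y * z - y * nab x z =
    nab y (x * z) - nab y x * z - x * nab y z
  c4_E : ∀ x y, nab x (E * y) - nab x E * y - E * nab x y = x * d y + y * d x - d (x * y)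
  c5_symm : ∀ w x y z,
    nab w (nab x (y * z) - nab x y * z - y * nab x z)
      - (nab (nab w x) (y * z) - nab (nab w x) y * z - y * nab (nab w x) z)
      - (nab x (nab w y * z) - nab x (nab w y) * z - nab w y * nab x z)
      - (nab x (y * nab w z) - nab x y * nab w z - y * nab x (nab w z)) =
    nab x (nab w (y * z) - nab w y * z - y * nab w z)
      - (nab (nab x w) (y * z) - nab (nab x w) y * z - y * nab (nab x w) z)
      - (nab w (nab x y * z) - nab w (nab x y) * z - nab x y * nab w z)
      - (nab w (y * nab x z) - nab w y * nab x z - y * nab w (nab x z))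
  /-- quantum multiplication as an operator on the whole cohomology -/
  C : A →ₐ[R] O
  mu : O
  nabO : A → O → O
  nabO_add : ∀ x a b, nabO x (a + b) = nabO x a + nabO x b
  nabO_mul : ∀ x a b, nabO x (a * b) = nabO x a * b + a * nabO x b
  nabO_smul : ∀ x (g : R) a, nabO x (g • a) = der x g • a + g • nabO x a
  nabO_mu : ∀ x, nabO x mu = 0
  nabO_U : ∀ x, nabO x (C E) = C x + C x * mu - mu * C x
  c4O_symm : ∀ x y, nabO x (C y) - C (nab x y) = nabO y (C x) - C (nab y x)
  /-- supertrace -/
  str : O →ₗ[R] R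
  str_comm : ∀ a b, str (a * b) = str (b * a)
  der_str : ∀ x a, der x (str a) = str (nabO x a)
  /-- half the dimension -/
  rho : ℚ
  /-- the derivative of the genus-one potential -/
  G : A →ₗ[R] R
  G_symm : ∀ x y, der x (G y) - G (nab x y) = der y (G x) - G (nab y x)
  G_one : G 1 = 0
  der_G_E : ∀ x, der x (G E) = 0

namespace Frob

variable {R A O : Type*} [CommRing R] [Algebra ℚ R] [CommRing A] [Algebra R A]
    [Ring O] [Algebra R O] (S : Frob R A O)

/-- four-point tensor -/
def c4 (x y z : A) : A := S.nab x (y * z) - S.nab x y * z - y * S.nab x z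

/-- five-point tensor -/
def c5 (w x y z : A) : A :=
  S.nab w (S.c4 x y z) - S.c4 (S.nab w x) y z - S.c4 x (S.nab w y) z - S.c4 x y (S.nab w z)

/-- four-point tensor as an operator on the whole cohomology -/
def c4O (x y : A) : O := S.nabO x (S.C y) - S.C (S.nab x y)

/-- Hessian of the genus-one potential -/
def H (x y : A) : R := S.der x (S.G y) - S.G (S.nab x y)

/-- one ordered term of Getzler's relation -/
def term (v : Fin 4 → A) : R :=
  3 * S.H (v 0 * v 1) (v 2 * v 3) - 4 * S.H (v 0 * v 1 * v 2) (v 3)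
    - S.G (S.c4 (v 0 * v 1) (v 2) (v 3)) + 2 * S.G (S.c4 (v 0) (v 1) (v 2) * v 3)
    + (1 / 6 : ℚ) • S.str (S.c4O (v 3) (S.c4 (v 0) (v 1) (v 2)))
    + (1 / 24 : ℚ) • S.str (S.C (S.c5 (v 0) (v 1) (v 2) (v 3)))
    - (1 / 4 : ℚ) • S.str (S.c4O (v 0) (v 1) * S.c4O (v 2) (v 3))

/-- Getzler's relation -/
def Getzler : Prop := ∀ v : Fin 4 → A, ∑ σ : Equiv.Perm (Fin 4), S.term (v ∘ σ) = 0

/-- `omega_n = Phi_{n-1}` -/
noncomputable def om (n : ℕ) : R := ∑ e ∈ antidiagonal n, if e.1 = 0 then 0 else
  -((1 / 4 : ℚ) • S.str (S.mu * S.C (S.E ^ (e.1 - 1)) * S.mu * S.C (S.E ^ e.2)))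
    - (1 / 24 : ℚ) • (S.str (S.C (S.E ^ (e.1 - 1) * S.d (S.E ^ e.2)))
        - S.rho • S.str (S.C (S.E ^ (e.1 - 1) * S.E ^ e.2)))

/-- `delta_n = - z_{n-1}` -/
noncomputable def de (n : ℕ) : R := S.G (S.E ^ n) - S.om n

/-- **[A-K]** -/
theorem key (hG : S.Getzler) (h1 : S.de 1 = 0) (hω : ∀ x, S.der x (S.om 1) = 0) (s : ℕ) :
    (s + 1 : R) * S.der (S.E ^ s) (S.de 2) = 2 * S.de (s + 1) := by
  sorry

/-- **[A-S]** the form `omega` is closed -/
theorem closed (m n : ℕ) :
    S.der (S.E ^ m) (S.om n) - S.der (S.E ^ n) (S.om m) = ((n : R) - m) * S.om (m + n - 1) := by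
  sorry

/-- **[A-C]** -/
theorem closure (hG : S.Getzler) (h1 : S.de 1 = 0) (hω : ∀ x, S.der x (S.om 1) = 0) (m n : ℕ) :
    S.der (S.E ^ m) (S.der (S.E ^ n) (S.de 2)) = (n : R) * S.der (S.E ^ (m + n - 1)) (S.de 2) := by
  sorry

end Frob

end Vale.Agent.P269.G1
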