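import Vale.Agent.P269.G1.Ser
import Vale.Agent.P269.G1.BAbs
import Vale.Agent.P269.H597.MainA

/-!
# [D] descendants: definitions and leaves
-/

namespace Vale.Agent.P269.G1

open Finset.HasAntidiagonal (antidiagonal)
open Vale.Agent.P269.CI
open Vale.Agent.P269.H597 (coh)

/-- functions on a finite-dimensional part of the big phase space -/
abbrev RB (n : ℕ) := MvPowerSeries (Fin n) (PowerSeries ℂ)

/-- a finite family of insertions `τ_m(h^j)` which contains `h^0, …, h^dim` -/
structure Fam (X : CompleteIntersection) (n : ℕ) where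
  e : Fin n → Fin (X.dim + 1) × ℕ
  i0 : Fin (X.dim + 1) → Fin n
  e_i0 : ∀ b, e (i0 b) = (b, 0)

variable {X : CompleteIntersection} {n : ℕ}

/-- the insertion of the variable `i` -/
def Fam.ins (E : Fam X n) (i : Fin n) : Ins X := (Sum.inl (E.e i).1, (E.e i).2)

/-- the function with the given coefficients -/
noncomputable def sr (E : Fam X n) (A : ℕ → List (Ins X) → ℂ) : RB n :=
  toSer fun L => PowerSeries.mk fun d => A d (L.map E.ins)

/-- symmetric on the lists of the family -/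
def SymF (E : Fam X n) (A : ℕ → List (Ins X) → ℂ) : Prop :=
  ∀ d (L M : List (Fin n)), L.Perm M → A d (L.map E.ins) = A d (M.map E.ins)

variable (E : Fam X n) {F : ℕ → ℕ → List (Ins X) → ℂ}

/-- constants -/
noncomputable def cb (n : ℕ) (c : ℂ) : RB n := MvPowerSeries.C (PowerSeries.C c)

/-- **[DB0]** -/
theorem symF_cor (hF : IsGW X F) (g : ℕ) (P : List (Ins X)) : SymF E (cor F g P) := by
  sorry

/-- **[DB0]** -/
theorem pderiv_sr (A : ℕ → List (Ins X) → ℂ) (hA : SymF E A) (i : Fin n) :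
    MvPowerSeries.pderiv (PowerSeries ℂ) i (sr E A) = sr E (fun d L => A d (E.ins i :: L)) := by
  sorry

/-- **[DB0]** -/
theorem pderiv_sr_cor (hF : IsGW X F) (g : ℕ) (P : List (Ins X)) (i : Fin n) :
    MvPowerSeries.pderiv (PowerSeries ℂ) i (sr E (cor F g P)) =
      sr E (cor F g (E.ins i :: P)) := by
  sorry

/-- **[DB0]** -/
theorem sr_mulS (A B : ℕ → List (Ins X) → ℂ) (hA : SymF E A) (hB : SymF E B) :
    sr E (mulS A B) = sr E A * sr E B := by
  sorry

/-- **[DB0]** -/
theorem sr_inj (A B : ℕ → List (Ins X) → ℂ) (hA : SymF E A) (hB : SymF E B)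
    (h : sr E A = sr E B) (d : ℕ) (L : List (Fin n)) :
    A d (L.map E.ins) = B d (L.map E.ins) := by
  sorry

/-- operators: matrices on the ambient part, diagonal operators on the primitive part -/
abbrev OB (X : CompleteIntersection) (n : ℕ) : Type :=
  Matrix (Fin (X.dim + 1)) (Fin (X.dim + 1)) (RB n) × (X.Prim → RB n)

/-- two-point functions -/
noncomputable def VB (F : ℕ → ℕ → List (Ins X) → ℂ) (a b : Ins X) : RB n := sr E (cor F 0 [a, b])

/-- `S_k`: the matrix entry `(c, b)` is the coefficient of `e_c` in `S_k e_b` -/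
noncomputable def SB (h1 : IsGenusOne F) : ℕ → OB X n
  | 0 => 1
  | k + 1 => (Matrix.of fun c b => ∑ a : Fin (X.dim + 1),
      pairingInv X (Sum.inl a) (Sum.inl c) • VB E F (Sum.inl b, k) (Sum.inl a, 0),
      fun _ => sr E (fun d L => Classical.choose h1.mono2 k 0 d L))

/-- the (big) quantum multiplication by `x` -/
noncomputable def CB (h1 : IsGenusOne F) : (Fin (X.dim + 1) → RB n) →ₗ[RB n] OB X n where
  toFun x := (Matrix.of fun c b => ∑ j, x j * ∑ a : Fin (X.dim + 1),
      pairingInv X (Sum.inl a) (Sum.inl c) • sr E (cor F 0 [hpow X j, hpow X b, hpow X a]),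
      fun _ => ∑ j, x j * sr E (fun d L => Classical.choose h1.mono2 0 0 d (hpow X j :: L)))
  map_add' x y := by
    refine Prod.ext ?_ ?_
    · refine Matrix.ext fun c b => ?_
      change ∑ j, (x j + y j) * _ = ∑ j, x j * _ + ∑ j, y j * _
      rw [← Finset.sum_add_distrib]
      exact Finset.sum_congr rfl fun j _ => by ring
    · funext v
      change ∑ j, (x j + y j) * _ = ∑ j, x j * _ + ∑ j, y j * _
      rw [← Finset.sum_add_distrib]
      exact Finset.sum_congr rfl fun j _ => by ring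
  map_smul' r x := by
    refine Prod.ext ?_ ?_
    · refine Matrix.ext fun c b => ?_
      change ∑ j, (r * x j) * _ = r * ∑ j, x j * _
      rw [Finset.mul_sum]
      exact Finset.sum_congr rfl fun j _ => by ring
    · funext v
      change ∑ j, (r * x j) * _ = r * ∑ j, x j * _
      rw [Finset.mul_sum]
      exact Finset.sum_congr rfl fun j _ => by ring

/-- `μ` -/
noncomputable def muB (X : CompleteIntersection) (n : ℕ) : OB X n :=
  (Matrix.diagonal fun b => cb n (mu X (Sum.inl b)), fun v => cb n (mu X (Sum.inr v)))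

/-- the classical multiplication by `c_1` -/
noncomputable def RBcl (X : CompleteIntersection) (n : ℕ) : OB X n :=
  (Matrix.of fun c b => cb n (c1 X (Sum.inl b) (Sum.inl c)), 0)

/-- `U` -/
noncomputable def UB (h1 : IsGenusOne F) : OB X n :=
  SB E h1 1 + SB E h1 1 * muB X n - muB X n * SB E h1 1 + RBcl X n

/-- supertrace -/
noncomputable def strB (X : CompleteIntersection) (n : ℕ) : OB X n →ₗ[RB n] RB n where
  toFun a := Matrix.trace a.1 + cb n ((-1) ^ X.dim) * ∑ v, a.2 v
  map_add' a b := by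
    change Matrix.trace (a.1 + b.1) + cb n ((-1) ^ X.dim) * ∑ v, (a.2 v + b.2 v) = _
    rw [Matrix.trace_add, Finset.sum_add_distrib]
    ring
  map_smul' r a := by
    change Matrix.trace (r • a.1) + cb n ((-1) ^ X.dim) * ∑ v, (r * a.2 v) = r * _
    rw [Matrix.trace_smul, ← Finset.mul_sum, smul_eq_mul]
    ring

/-- the derivative of the genus-one potential in the directions of level zero -/
noncomputable def GB (F : ℕ → ℕ → List (Ins X) → ℂ) : (Fin (X.dim + 1) → RB n) →ₗ[RB n] RB n where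
  toFun x := ∑ j, x j * sr E (cor F 1 [hpow X j])
  map_add' x y := by
    change ∑ j, (x j + y j) * _ = ∑ j, x j * _ + ∑ j, y j * _
    rw [← Finset.sum_add_distrib]
    exact Finset.sum_congr rfl fun j _ => by ring
  map_smul' r x := by
    change ∑ j, (r * x j) * _ = r * ∑ j, x j * _
    rw [Finset.mul_sum]
    exact Finset.sum_congr rfl fun j _ => by ring

/-- `w_{i,j} = S_{m_i - j} e_{a_i}` -/
noncomputable def wB (h1 : IsGenusOne F) (i : Fin n) (j : ℕ) : Fin (X.dim + 1) → RB n := fun c =>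
  if j ≤ (E.e i).2 then (SB E h1 ((E.e i).2 - j)).1 c (E.e i).1 else 0

/-- `g_j`: minus the coefficient of `z^j` of `S (∑ x_i z^{m_i} e_{a_i} - z e_0)` -/
noncomputable def gB (h1 : IsGenusOne F) (j : ℕ) : Fin (X.dim + 1) → RB n := fun c =>
  (if j ≤ 1 then (SB E h1 (1 - j)).1 c 0 else 0) - ∑ i, MvPowerSeries.X i * wB E h1 i j c

/-- entrywise derivative -/
noncomputable def dB (i : Fin n) (a : OB X n) : OB X n :=
  (a.1.map (MvPowerSeries.pderiv (PowerSeries ℂ) i),
    fun v => MvPowerSeries.pderiv (PowerSeries ℂ) i (a.2 v))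

/-- action on vectors -/
noncomputable def actB (X : CompleteIntersection) (n : ℕ) :
    OB X n →ₐ[RB n] Module.End (RB n) (Fin (X.dim + 1) → RB n) :=
  (Matrix.toLinAlgEquiv' (R := RB n) (n := Fin (X.dim + 1))).toAlgHom.comp
    (AlgHom.fst (RB n) (Matrix (Fin (X.dim + 1)) (Fin (X.dim + 1)) (RB n)) (X.Prim → RB n))

/-- **[DB1]** topological recursion for two-point functions -/
theorem dB_SB (hF : IsGW X F) (h1 : IsGenusOne F) (i : Fin n) (k : ℕ) :
    dB i (SB E h1 (k + 1)) = CB E h1 (wB E h1 i 0) * SB E h1 k := by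
  sorry

/-- **[DB1']** two-point functions depend only on the point of the small phase space -/
theorem pderiv_VB (hF : IsGW X F) (h1 : IsGenusOne F) (i : Fin n) (a b : Ins X) :
    MvPowerSeries.pderiv (PowerSeries ℂ) i (VB E F a b) =
      ∑ c, wB E h1 i 0 c * MvPowerSeries.pderiv (PowerSeries ℂ) (E.i0 c) (VB E F a b) := by
  sorry

/-- **[DB2]** WDVV -/
theorem CB_comm (hF : IsGW X F) (h1 : IsGenusOne F) (x y : Fin (X.dim + 1) → RB n) :
    actB X n (CB E h1 x) y = actB X n (CB E h1 y) x := by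
  sorry

/-- **[DB2]** -/
theorem CB_mul (hF : IsGW X F) (h1 : IsGenusOne F) (x y : Fin (X.dim + 1) → RB n) :
    CB E h1 (actB X n (CB E h1 x) y) = CB E h1 x * CB E h1 y := by
  sorry

/-- **[DB3]** string equation, differentiated twice -/
theorem CB_g (hF : IsGW X F) (h1 : IsGenusOne F) : CB E h1 (gB E h1 1) = 1 := by
  sorry

/-- **[DB3]** string equation, differentiated once -/
theorem g_zero (hF : IsGW X F) (h1 : IsGenusOne F) : gB E h1 0 = 0 := by
  sorry

/-- a constant vector -/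
noncomputable def eB (X : CompleteIntersection) (n : ℕ) (b : Fin (X.dim + 1)) : Fin (X.dim + 1) → RB n :=
  Pi.single b 1

/-- `c + μ` on vectors -/
noncomputable def muc (X : CompleteIntersection) (n : ℕ) (c : ℂ) : OB X n :=
  (Matrix.diagonal fun b => cb n (c + mu X (Sum.inl b)), fun v => cb n (c + mu X (Sum.inr v)))

/-- the vector `-𝒜_0(l_0 τ)` -/
noncomputable def calE (h1 : IsGenusOne F) : Fin (X.dim + 1) → RB n :=
  actB X n (SB E h1 1 * muc X n (3 / 2) + RBcl X n) (eB X n 0) -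
    ∑ i, (MvPowerSeries.X i : RB n) •
      (actB X n (SB E h1 (E.e i).2 * muc X n ((E.e i).2 + 1 / 2)) (eB X n (E.e i).1) +
      if (E.e i).2 = 0 then 0 else
        actB X n (SB E h1 ((E.e i).2 - 1) * RBcl X n) (eB X n (E.e i).1))

/-- **[DB4a]** grading and divisor equation -/
theorem SB_euler (hF : IsGW X F) (h1 : IsGenusOne F) (k : ℕ) : CB E h1 (calE E h1) * SB E h1 k =
    ((k : ℚ) + 1) • SB E h1 (k + 1) + SB E h1 (k + 1) * muB X n - muB X n * SB E h1 (k + 1) +
      SB E h1 k * RBcl X n := by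
  sorry

/-- **[DB4b]** algebra from `SB_euler`, `g_zero`, `CB_g`, `CB_comm` -/
theorem CB_U (hF : IsGW X F) (h1 : IsGenusOne F) :
    CB E h1 (actB X n (UB E h1) (gB E h1 1)) = UB E h1 := by
  sorry

/-- **[DB5]** topological recursion in genus one -/
theorem cor_one_big (hF : IsGW X F) (h1 : IsGenusOne F) (i : Fin n) :
    sr E (cor F 1 [E.ins i]) = GB E F (wB E h1 i 0) +
      (1 / 24 : ℚ) • strB X n (CB E h1 (wB E h1 i 1)) := by
  sorry

/-- **[DB5']** the same for an arbitrary level -/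
theorem cor_one_lev (hF : IsGW X F) (h1 : IsGenusOne F) (b : Fin (X.dim + 1)) (m : ℕ) :
    sr E (cor F 1 [(Sum.inl b, m)]) = GB E F (fun c => (SB E h1 m).1 c b) +
      if m = 0 then 0 else (1 / 24 : ℚ) • strB X n (CB E h1 fun c => (SB E h1 (m - 1)).1 c b) := by
  sorry

/-- the loop term -/
noncomputable def loopB (F : ℕ → ℕ → List (Ins X) → ℂ) (k : ℕ) : RB n :=
  sr E (fun d L => (coh X).loop (F 0 d) k L)

/-- **[DG]** -/
theorem bDO_add (i : Fin n) (a b : OB X n) : dB i (a + b) = dB i a + dB i b := by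
  sorry

/-- **[DG]** -/
theorem bDO_mul (i : Fin n) (a b : OB X n) : dB i (a * b) = dB i a * b + a * dB i b := by
  sorry

/-- **[DG]** -/
theorem bDO_smul (i : Fin n) (r : RB n) (a : OB X n) :
    dB i (r • a) = MvPowerSeries.pderiv (PowerSeries ℂ) i r • a + r • dB i a := by
  sorry

/-- **[DG]** -/
theorem bD_act (i : Fin n) (a : OB X n) (x : Fin (X.dim + 1) → RB n) (b : Fin (X.dim + 1)) :
    MvPowerSeries.pderiv (PowerSeries ℂ) i (actB X n a x b) = actB X n (dB i a) x b +
      actB X n a (fun c => MvPowerSeries.pderiv (PowerSeries ℂ) i (x c)) b := by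
  sorry

/-- **[DG]** -/
theorem bstr_comm (a b : OB X n) : strB X n (a * b) = strB X n (b * a) := by
  sorry

/-- **[DG]** -/
theorem bD_str (i : Fin n) (a : OB X n) :
    MvPowerSeries.pderiv (PowerSeries ℂ) i (strB X n a) = strB X n (dB i a) := by
  sorry

/-- **[DG]** -/
theorem bDO_mu (i : Fin n) : dB i (muB X n) = 0 := by
  sorry

/-- **[DG]** -/
theorem bDO_R (i : Fin n) : dB i (RBcl X n) = 0 := by
  sorry

/-- **[DG]** -/
theorem bw_zero (h1 : IsGenusOne F) (b : Fin (X.dim + 1)) :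
    wB E h1 (E.i0 b) 0 = Pi.single b 1 := by
  sorry

/-- **[DG]** -/
theorem bw_succ (h1 : IsGenusOne F) (b : Fin (X.dim + 1)) (l : ℕ) :
    wB E h1 (E.i0 b) (l + 1) = 0 := by
  sorry

/-- **[DH]** from `dB_SB` -/
theorem bD_w (hF : IsGW X F) (h1 : IsGenusOne F) (i j : Fin n) (l : ℕ) (b : Fin (X.dim + 1)) :
    MvPowerSeries.pderiv (PowerSeries ℂ) i (wB E h1 j l b) =
      actB X n (CB E h1 (wB E h1 i 0)) (wB E h1 j (l + 1)) b := by
  sorry

/-- **[DH]** from `bD_w` -/
theorem bD_g (hF : IsGW X F) (h1 : IsGenusOne F) (i : Fin n) (j : ℕ) (b : Fin (X.dim + 1)) :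
    MvPowerSeries.pderiv (PowerSeries ℂ) i (gB E h1 (j + 1) b) =
      actB X n (CB E h1 (wB E h1 i 0)) (gB E h1 (j + 2)) b - wB E h1 i (j + 1) b := by
  sorry

/-- **[DH]** from `dB_SB` -/
theorem bDO_U (hF : IsGW X F) (h1 : IsGenusOne F) (i : Fin n) : dB i (UB E h1) =
    CB E h1 (wB E h1 i 0) + CB E h1 (wB E h1 i 0) * muB X n -
      muB X n * CB E h1 (wB E h1 i 0) := by
  sorry

/-- **[DH]** from `dB_SB` and `pderiv_comm` -/
theorem bC_symm (hF : IsGW X F) (h1 : IsGenusOne F) (i j : Fin n) :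
    dB i (CB E h1 (wB E h1 j 0)) = dB j (CB E h1 (wB E h1 i 0)) := by
  sorry

/-- **[DH]** from `cor_one_big` -/
theorem bG_symm (hF : IsGW X F) (h1 : IsGenusOne F) (i j : Fin n) :
    MvPowerSeries.pderiv (PowerSeries ℂ) i (GB E F (wB E h1 j 0) +
      (1 / 24 : ℚ) • strB X n (CB E h1 (wB E h1 j 1))) =
    MvPowerSeries.pderiv (PowerSeries ℂ) j (GB E F (wB E h1 i 0) +
      (1 / 24 : ℚ) • strB X n (CB E h1 (wB E h1 i 1))) := by
  sorry

/-- the data at a general point of the big phase space -/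
noncomputable def big (hF : IsGW X F) (h1 : IsGenusOne F) :
    Big (Fin n) (Fin (X.dim + 1)) (RB n) (OB X n) where
  D i f := MvPowerSeries.pderiv (PowerSeries ℂ) i f
  D_add i f g := map_add _ f g
  D_mul i f g := by
    rw [Derivation.leibniz, smul_eq_mul, smul_eq_mul]
    ring
  DO := dB
  DO_add := bDO_add
  DO_mul := bDO_mul
  DO_smul := bDO_smul
  act := actB X n
  D_act := bD_act
  str := strB X n
  str_comm := bstr_comm
  D_str := bD_str
  C := CB E h1
  C_comm := CB_comm E hF h1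
  C_mul := CB_mul E hF h1
  mu := muB X n
  DO_mu := bDO_mu
  U := UB E h1
  w := wB E h1
  g := gB E h1
  C_g := CB_g E hF h1
  C_U := CB_U E hF h1
  D_g := bD_g E hF h1
  D_w := bD_w E hF h1
  DO_U := bDO_U E hF h1
  C_symm := bC_symm E hF h1
  i0 := E.i0
  w_zero := bw_zero E h1
  w_succ := bw_succ E h1
  G := GB E F
  G_symm := bG_symm E hF h1

/-! ### the vectors `l_k τ` -/

/-- `τ = ∑ x_i z^{m_i} e_{a_i} - z e_0` -/
noncomputable def tauB (E : Fam X n) (p : ℕ) : Fin (X.dim + 1) → RB n := fun b =>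
  (∑ i, if E.e i = (b, p) then (MvPowerSeries.X i : RB n) else 0) -
    if p = 1 ∧ b = 0 then 1 else 0

/-- the polynomial part of `z c - (∂ F_0)(c)`, `N` a bound for the degree -/
noncomputable def cZB (h1 : IsGenusOne F) (N : ℕ) (c : ℕ → Fin (X.dim + 1) → RB n) :
    ℕ → Fin (X.dim + 1) → RB n
  | 0 => - ∑ m ∈ Finset.range N, actB X n (SB E h1 (m + 1)) (c m)
  | p + 1 => c p

/-- the polynomial part of `l_0 c`, `l_0 = z d/dz + 1/2 + μ + R/z` -/
noncomputable def cLB (c : ℕ → Fin (X.dim + 1) → RB n) : ℕ → Fin (X.dim + 1) → RB n := fun p =>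
  actB X n (muc X n (p + 1 / 2)) (c p) + actB X n (RBcl X n) (c (p + 1))

/-- the polynomial part of `l_k` applied to the point of the cone; `N` a bound for the degree -/
noncomputable def cB (h1 : IsGenusOne F) (N : ℕ) : ℕ → ℕ → Fin (X.dim + 1) → RB n
  | 0 => cLB (tauB E)
  | k + 1 => cLB (cZB E h1 N (cB h1 N k))

/-- **[DC1]** `cB` is `cs` of `H597.State` restricted to the family; `N` large -/
theorem vir_act (hF : IsGW X F) (h1 : IsGenusOne F) (k N : ℕ)
    (hN : ∀ i, (E.e i).2 + k + 2 ≤ N) (hN2 : k + 3 ≤ N) :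
    sr E (fun d L => virasoro X F (k + 1) 1 d L) =
      (∑ p ∈ Finset.range N, ∑ b, cB E h1 N k p b * sr E (cor F 1 [(Sum.inl b, p)])) +
      cb n (1 / 2) * loopB E F k + (if k = 0 then cb n (coh X).kap else 0) := by
  sorry

/-- **[DC2]** -/
theorem cB_high (h1 : IsGenusOne F) (k N p : ℕ)
    (hN : ∀ i, (E.e i).2 + k + 2 ≤ N) (hN2 : k + 3 ≤ N) (hp : N ≤ p + 1) : cB E h1 N k p = 0 := by
  sorry

/-- **[DC2]** `𝒜_0` -/
theorem cB_zero (hF : IsGW X F) (h1 : IsGenusOne F) (k N : ℕ)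
    (hN : ∀ i, (E.e i).2 + k + 2 ≤ N) (hN2 : k + 3 ≤ N) :
    ∑ p ∈ Finset.range N, actB X n (SB E h1 p) (cB E h1 N k p) =
      - actB X n (UB E h1 ^ (k + 1)) (gB E h1 1) := by
  sorry

/-- **[DC2]** `𝒜_1` -/
theorem cB_one (hF : IsGW X F) (h1 : IsGenusOne F) (k N : ℕ)
    (hN : ∀ i, (E.e i).2 + k + 2 ≤ N) (hN2 : k + 3 ≤ N) :
    ∑ p ∈ Finset.range N, actB X n (SB E h1 p) (cB E h1 N k (p + 1)) =
      - ((∑ e ∈ antidiagonal (k + 1), if e.1 = 0 then 0 else
        actB X n (UB E h1 ^ (e.1 - 1) * muc X n (3 / 2) * UB E h1 ^ e.2) (gB E h1 1)) +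
        actB X n (UB E h1 ^ (k + 1)) (gB E h1 2)) := by
  sorry

/-- **[DC]** the genus-one Virasoro coefficients at a general point; from `vir_act`,
`cor_one_lev`, `cB_zero`, `cB_one` -/
theorem vir_big (hF : IsGW X F) (h1 : IsGenusOne F) (k : ℕ) :
    sr E (fun d L => virasoro X F (k + 1) 1 d L) = (big E hF h1).zlin (k + 1) +
      cb n (1 / 2) * loopB E F k + (if k = 0 then cb n (coh X).kap else 0) := by
  sorry

/-- **[DB6]** -/
theorem symF_vir (hF : IsGW X F) (k : ℕ) :
    SymF E (fun d L => virasoro X F (k + 1) 1 d L) := by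
  sorry

/-- **[DF]** from `vir_big`, `Big.reduce`, `pderiv_VB`, `descend` -/
theorem vir_descend (hF : IsGW X F) (h1 : IsGenusOne F) (k : ℕ)
    (h : ∀ d (L : List (Fin (X.dim + 1))), virasoro X F (k + 1) 1 d (L.map (hpow X)) = 0)
    (d : ℕ) (L : List (Ins X)) (hL : ∀ x ∈ L, IsAmb X x) : virasoro X F (k + 1) 1 d L = 0 := by
  sorry

end Vale.Agent.P269.G1
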