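import Vale.Agent.P269.G1.Alg

/-!
# The polynomial annihilating the Euler field
-/

namespace Vale.Agent.P269.G1

open Finset.HasAntidiagonal (antidiagonal)
open Polynomial

section ops

variable {R A O : Type*} [CommRing R] [Algebra ℚ R] [CommRing A] [Algebra R A]
    [Ring O] [Algebra R O]

namespace Frob

variable (S : Frob R A O)

/-- `psi_n = ∑_{a+b=n-1} U^a μ U^b` -/
noncomputable def psi (n : ℕ) : O := ∑ e ∈ antidiagonal n, if e.1 = 0 then 0 else
  S.C (S.E ^ (e.1 - 1)) * S.mu * S.C (S.E ^ e.2)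

/-- `phi_n = ∑_{a+b=n-1} E^a μ(E^b)` -/
noncomputable def phi (n : ℕ) : A := ∑ e ∈ antidiagonal n, if e.1 = 0 then 0 else
  S.E ^ (e.1 - 1) * (S.d (S.E ^ e.2) - (algebraMap ℚ R S.rho) • S.E ^ e.2)

/-- **[P1]** -/
theorem om_poly (P : R[X]) (hP : aeval S.E P = 0)
    (hΛ : P.sum (fun n c => c • S.psi n) = 0) (hφ : P.sum (fun n c => c • S.phi n) = 0) (j : ℕ) :
    P.sum (fun n c => c * S.om (n + j)) = 0 := by
  sorry

end Frob

end ops

section alg

variable {R A : Type*} [CommRing R] [Algebra ℚ R] [CommRing A] [Algebra R A]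

/-- **[P2]** the noncommutative difference quotient of an annihilating polynomial at a skew
operator vanishes if `E` generates. -/
theorem skew_zero (E : A) (hE : ∀ y : A, ∃ f : R[X], y = aeval E f) (mu : A →ₗ[R] A)
    (η : A →ₗ[R] A →ₗ[R] R) (hη : ∀ x y, η x y = η y x) (hinv : ∀ x y z, η (x * y) z = η x (y * z))
    (hnd : ∀ x, (∀ y, η x y = 0) → x = 0) (hmu : ∀ x y, η (mu x) y = - η x (mu y))
    (P : R[X]) (hP : aeval E P = 0) (y : A) :
    P.sum (fun n c => ∑ e ∈ antidiagonal n, if e.1 = 0 then 0 else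
      c • (E ^ (e.1 - 1) * mu (E ^ e.2 * y))) = 0 := by
  sorry

/-- **[P3]** a nilpotent in the direction of a character gives a double root. -/
theorem double_root {n : ℕ} (hn : 0 < n) (E : A) (b : Module.Basis (Fin n) R A)
    (hb : ∀ i, b i = E ^ (i : ℕ)) (lam : A →ₐ[R] R) (η : A →ₗ[R] A →ₗ[R] R)
    (hη : ∀ x y, η x y = η y x) (hinv : ∀ x y z, η (x * y) z = η x (y * z))
    (hnd : ∀ x, (∀ y, η x y = 0) → x = 0) (s : A) (hs : ∀ x, η s x = lam x) (h0 : lam s = 0)
    (P : R[X]) (hP : P.Monic) (hdeg : P.natDegree = n) (hPE : aeval E P = 0) :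
    P.derivative.eval (lam E) = 0 := by
  sorry

end alg

section ode

variable {n : ℕ} {K : Type*} [CommRing K] [Algebra ℚ K]

/-- **[P4]** a first order linear system with zero initial value has only the zero solution. -/
theorem ode_zero {N : ℕ} (a : Fin N → MvPowerSeries (Fin n) K)
    (h0 : ∀ p, MvPowerSeries.constantCoeff (a p) = 0)
    (M : Fin n → Fin N → Fin N → MvPowerSeries (Fin n) K)
    (h : ∀ i p, MvPowerSeries.pderiv K i (a p) = ∑ q, M i p q * a q) : ∀ p, a p = 0 := by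
  sorry

end ode

section ideal

variable {K : Type*} [Field K] [CharZero K]

/-- **[P5]** if a sequence over `K[[q]]` is killed by `P = x^{m+ν} - c q x^m` and by `P'` then
it vanishes from `m-1` on. -/
theorem killed {m ν : ℕ} (hm : 1 ≤ m) (hν : 1 ≤ ν) (c : K) (hc : c ≠ 0)
    (a : ℕ → PowerSeries K)
    (hP : ∀ j, a (m + ν + j) = PowerSeries.C c * PowerSeries.X * a (m + j))
    (hP' : ∀ j, ((m + ν : ℕ) : PowerSeries K) * a (m + ν - 1 + j) =
      (m : PowerSeries K) * PowerSeries.C c * PowerSeries.X * a (m - 1 + j)) :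
    ∀ p, m - 1 ≤ p → a p = 0 := by
  sorry

end ideal

end Vale.Agent.P269.G1
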