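import Vale.Agent.P269.G1.Oper
import Vale.Agent.P269.G1.Poly

/-!
# Stage 4: the small phase space of a complete intersection, and what is left to prove
-/

namespace Vale.Agent.P269.G1

open Finset.HasAntidiagonal (antidiagonal)
open Vale.Agent.P269.CI
open Polynomial (aeval)

variable {X : CompleteIntersection} {F : ℕ → ℕ → List (Ins X) → ℂ}

variable (hF : IsGW X F) (h1 : IsGenusOne F)

theorem der_cst (x : AA hF h1) (c : ℂ) : der hF h1 x (cst X c) = 0 := by
  refine Finset.sum_eq_zero fun i _ => ?_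
  have h : MvPowerSeries.pderiv (PowerSeries ℂ) i (cst X c) = 0 := by
    unfold cst
    exact MvPowerSeries.pderiv_C
  rw [h, mul_zero]

/-- The small phase space with ambient coordinates. -/
noncomputable def frob : Frob (RR X) (AA hF h1) (OO hF h1) where
  der := der hF h1
  der_add_left := der_add_left hF h1
  der_smul_left := der_smul_left hF h1
  der_add := der_add hF h1
  der_mul := der_mul hF h1
  der_rat := der_rat hF h1
  nab := nab hF h1
  nab_add_left := nab_add_left hF h1
  nab_smul_left := nab_smul_left hF h1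
  nab_add := nab_add hF h1
  nab_smul := nab_smul hF h1
  nab_one := nab_one hF h1
  der_comm := der_comm hF h1
  d := dd hF h1
  d_one := d_one hF h1
  nab_d := nab_d hF h1
  E := Eu hF h1
  nab_E := nab_E hF h1
  c4_symm := c4_symm hF h1
  c4_E := c4_E hF h1
  c5_symm := c5_symm hF h1
  C := CC hF h1
  mu := muO hF h1
  nabO := nabO hF h1
  nabO_add := nabO_add hF h1
  nabO_mul := nabO_mul hF h1
  nabO_smul := nabO_smul hF h1
  nabO_mu := nabO_mu hF h1
  nabO_U := nabO_U hF h1
  c4O_symm := c4O_symm hF h1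
  str := strO hF h1
  str_comm := str_comm hF h1
  der_str := der_str hF h1
  rho := (X.dim : ℚ) / 2
  G := GG hF h1
  G_symm := G_symm hF h1
  G_one := G_one hF h1
  der_G_E x := by
    rw [G_E hF h1]
    exact der_cst hF h1 x _

/-- **[c7]** Getzler's relation, by multilinearity from `h1.getzler` -/
theorem frob_getzler : (frob hF h1).Getzler := by
  sorry

/-- **[c9]** `om_1` is constant and `de_1 = 0` (`G_E` and the formula of Libgober and Wood) -/
theorem frob_om_one (x : AA hF h1) : (frob hF h1).der x ((frob hF h1).om 1) = 0 := by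
  sorry

/-- **[c9]** -/
theorem frob_de_one (hX : 3 ≤ X.dim) : (frob hF h1).de 1 = 0 := by
  sorry

/-- **[Z]** the genus-one Virasoro constraint on the small phase space -/
theorem vir_small (k : ℕ) :
    ser (fun d L => virasoro X F (k + 1) 1 d L) = - (frob hF h1).de (k + 1) := by
  sorry

/-- **[Z0]** -/
theorem symS_vir (hF : IsGW X F) (k : ℕ) :
    SymS (X := X) (fun d L => virasoro X F (k + 1) 1 d L) := by
  sorry

/-- **[W]** dimension count -/
theorem vir_weight (hF : IsGW X F) (k d : ℕ) (h : index X * d ≠ k) :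
    virasoro X F (k + 1) 1 d [] = 0 := by
  sorry

/-- **[Q0]** -/
theorem index_eq (X : CompleteIntersection) : index X = (X.dim : ℤ) + 1 - excess X := by
  sorry

/-- **[Q1]** -/
theorem pow_basis (hi : index X ≠ 0) : ∃ b : Module.Basis (Fin (X.dim + 1)) (RR X) (AA hF h1),
    ∀ i, b i = Eu hF h1 ^ (i : ℕ) := by
  sorry

/-- the constant `ν^ν ∏ d_i^{d_i}` -/
noncomputable def cq (X : CompleteIntersection) : ℂ :=
  (index X : ℂ) ^ (X.dim + 1 - excess X) * (X.degs.map fun d => (d : ℂ) ^ d).prod

/-- **[Q2]** -/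
theorem exists_poly (hi : 2 ≤ index X) : ∃ P : Polynomial (RR X), P.Monic ∧
    P.natDegree = X.dim + 1 ∧ aeval (Eu hF h1) P = 0 ∧
    ∀ i < X.dim + 1, MvPowerSeries.constantCoeff (P.coeff i) =
      if i = excess X then - (PowerSeries.C (cq X) * PowerSeries.X) else 0 := by
  sorry

/-- the Poincaré pairing -/
noncomputable def eta : AA hF h1 →ₗ[RR X] AA hF h1 →ₗ[RR X] RR X :=
  LinearMap.mk₂ (RR X)
    (fun x y => ∑ i : Fin (X.dim + 1), ∑ j : Fin (X.dim + 1),
      cst X (pairing X (Sum.inl i) (Sum.inl j)) * (x i * y j))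
    (fun x x' y => by
      change ∑ i : Fin (X.dim + 1), ∑ j : Fin (X.dim + 1),
        cst X (pairing X (Sum.inl i) (Sum.inl j)) * ((x i + x' i) * y j) = _
      rw [← Finset.sum_add_distrib]
      refine Finset.sum_congr rfl fun i _ => ?_
      rw [← Finset.sum_add_distrib]
      exact Finset.sum_congr rfl fun j _ => by ring)
    (fun c x y => by
      change ∑ i : Fin (X.dim + 1), ∑ j : Fin (X.dim + 1),
        cst X (pairing X (Sum.inl i) (Sum.inl j)) * ((c * x i) * y j) = c * _
      rw [Finset.mul_sum]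
      refine Finset.sum_congr rfl fun i _ => ?_
      rw [Finset.mul_sum]
      exact Finset.sum_congr rfl fun j _ => by ring)
    (fun x y y' => by
      change ∑ i : Fin (X.dim + 1), ∑ j : Fin (X.dim + 1),
        cst X (pairing X (Sum.inl i) (Sum.inl j)) * (x i * (y j + y' j)) = _
      rw [← Finset.sum_add_distrib]
      refine Finset.sum_congr rfl fun i _ => ?_
      rw [← Finset.sum_add_distrib]
      exact Finset.sum_congr rfl fun j _ => by ring)
    (fun c x y => by
      change ∑ i : Fin (X.dim + 1), ∑ j : Fin (X.dim + 1),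
        cst X (pairing X (Sum.inl i) (Sum.inl j)) * (x i * (c * y j)) = c * _
      rw [Finset.mul_sum]
      refine Finset.sum_congr rfl fun i _ => ?_
      rw [Finset.mul_sum]
      exact Finset.sum_congr rfl fun j _ => by ring)

/-- **[Q3]** -/
theorem eta_symm (x y : AA hF h1) : eta hF h1 x y = eta hF h1 y x := by
  sorry

/-- **[Q3]** -/
theorem eta_inv (x y z : AA hF h1) : eta hF h1 (x * y) z = eta hF h1 x (y * z) := by
  sorry

/-- **[Q3]** -/
theorem eta_nondeg (x : AA hF h1) (h : ∀ y, eta hF h1 x y = 0) : x = 0 := by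
  sorry

/-- **[Q3]** -/
theorem eta_mu (x y : AA hF h1) :
    eta hF h1 ((muO hF h1).1 x) y = - eta hF h1 x ((muO hF h1).1 y) := by
  sorry

/-- **[Q3]** the vector representing the character of the primitive part -/
theorem eta_lam (v : X.Prim) : ∃ s : AA hF h1, (∀ x, eta hF h1 s x = (lam hF h1 x) v) ∧
    (2 * X.hodgeP v ≠ X.dim → (lam hF h1 s) v = 0) := by
  sorry

/-- **[Q4]** from `skew_zero` and `double_root` -/
theorem psi_zero (hi : index X ≠ 0) (P : Polynomial (RR X)) (hm : P.Monic)
    (hd : P.natDegree = X.dim + 1) (hP : aeval (Eu hF h1) P = 0) :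
    P.sum (fun n c => c • (frob hF h1).psi n) = 0 := by
  sorry

/-- **[Q5]** from `skew_zero` -/
theorem phi_zero (hi : index X ≠ 0) (P : Polynomial (RR X)) (hP : aeval (Eu hF h1) P = 0) :
    P.sum (fun n c => c • (frob hF h1).phi n) = 0 := by
  sorry

/-- **[F]** -/
theorem de_zero (hX : 3 ≤ X.dim) (hm : 2 ≤ excess X) (hX2 : 2 * excess X ≤ X.dim + 2) (n : ℕ) :
    (frob hF h1).de n = 0 := by
  sorry

/-- The genus-one Virasoro constraints on the small ambient phase space. -/
theorem virasoro_small (hF : IsGW X F) (h1 : IsGenusOne F) (hX : 3 ≤ X.dim)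
    (hm : 2 ≤ excess X) (hX2 : 2 * excess X ≤ X.dim + 2) (k d : ℕ)
    (L : List (Fin (X.dim + 1))) : virasoro X F (k + 1) 1 d (L.map (hpow X)) = 0 := by
  have h0 : ser (fun d L => virasoro X F (k + 1) 1 d L) = ser (X := X) (fun _ _ => 0) := by
    rw [vir_small hF h1, de_zero hF h1 hX hm hX2, neg_zero]
    symm
    funext α
    change ((∏ i, (α i).factorial : ℕ) : ℚ)⁻¹ • (PowerSeries.mk fun _ => (0 : ℂ)) = 0
    have : (PowerSeries.mk fun _ => (0 : ℂ)) = 0 := by
      ext; simp
    rw [this, smul_zero]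
  exact ser_inj _ _ (symS_vir hF k) (fun _ _ _ _ => rfl) h0 d L

end Vale.Agent.P269.G1
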