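import Vale.Agent.P269.G1.Model

/-!
# Stage 3: operators on the whole cohomology
-/

namespace Vale.Agent.P269.G1

open Finset.HasAntidiagonal (antidiagonal)
open Vale.Agent.P269.CI

variable {X : CompleteIntersection} {F : ℕ → ℕ → List (Ins X) → ℂ}

variable (hF : IsGW X F) (h1 : IsGenusOne F)

/-- quantum multiplication on the primitive part -/
noncomputable def lam : AA hF h1 →ₐ[RR X] (X.Prim → RR X) where
  toFun x := fun _ => ∑ i, x i * lamc h1 i
  map_one' := by
    funext v
    rw [Finset.sum_eq_single 0]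
    · rw [lamc_zero h1 v]
      change (if (0 : Fin (X.dim + 1)) = 0 then (1 : RR X) else 0) * 1 = 1
      simp
    · intro i _ hi
      change (if i = 0 then (1 : RR X) else 0) * _ = 0
      rw [if_neg hi, zero_mul]
    · simp
  map_mul' x y := by
    funext v
    change ∑ k, (∑ i, ∑ j, x i * y j * qc F i j k) * lamc h1 k =
      (∑ i, x i * lamc h1 i) * (∑ j, y j * lamc h1 j)
    rw [Finset.sum_mul_sum]
    simp only [Finset.sum_mul]
    rw [Finset.sum_comm]
    refine Finset.sum_congr rfl fun i _ => ?_
    rw [Finset.sum_comm]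
    refine Finset.sum_congr rfl fun j _ => ?_
    have h := lamc_mul h1 v i j
    calc ∑ k, x i * y j * qc F i j k * lamc h1 k
        = x i * y j * ∑ k, qc F i j k * lamc h1 k := by
          rw [Finset.mul_sum]
          exact Finset.sum_congr rfl fun k _ => by ring
      _ = x i * lamc h1 i * (y j * lamc h1 j) := by rw [← h]; ring
  map_zero' := by
    funext v
    refine Finset.sum_eq_zero fun i _ => ?_
    change (0 : RR X) * _ = 0
    ring
  map_add' x y := by
    funext v
    change ∑ i, (x i + y i) * _ = ∑ i, x i * _ + ∑ i, y i * _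
    rw [← Finset.sum_add_distrib]
    exact Finset.sum_congr rfl fun i _ => by ring
  commutes' r := by
    funext v
    have h : (algebraMap (RR X) (AA hF h1) r) = r • (1 : AA hF h1) := by
      rw [Algebra.algebraMap_eq_smul_one]
    rw [h, Finset.sum_eq_single 0]
    · rw [lamc_zero h1 v]
      change r * (if (0 : Fin (X.dim + 1)) = 0 then (1 : RR X) else 0) * 1 = r
      simp
    · intro i _ hi
      change r * (if i = 0 then (1 : RR X) else 0) * _ = 0
      rw [if_neg hi]
      ring
    · simp

/-- even operators: on the ambient part, and diagonal ones on the primitive part -/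
abbrev OO : Type := Module.End (RR X) (AA hF h1) × (X.Prim → RR X)

/-- quantum multiplication -/
noncomputable def CC : AA hF h1 →ₐ[RR X] OO hF h1 :=
  (Algebra.lmul (RR X) (AA hF h1)).prod (lam hF h1)

/-- `μ` -/
noncomputable def muO : OO hF h1 :=
  (dd hF h1 - cst X ((X.dim : ℂ) / 2) • LinearMap.id,
    fun v => cst X ((X.hodgeP v : ℂ) - (X.dim : ℂ) / 2))

/-- covariant derivative of operators on the ambient part -/
noncomputable def nabEnd (x : AA hF h1) (T : Module.End (RR X) (AA hF h1)) :
    Module.End (RR X) (AA hF h1) where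
  toFun z := nab hF h1 x (T z) - T (nab hF h1 x z)
  map_add' y z := by
    rw [map_add, nab_add, nab_add, map_add]
    abel
  map_smul' r z := by
    simp only [RingHom.id_apply]
    rw [map_smul, nab_smul, nab_smul, map_add, map_smul, map_smul, smul_sub]
    abel

/-- covariant derivative of operators -/
noncomputable def nabO (x : AA hF h1) (a : OO hF h1) : OO hF h1 :=
  (nabEnd hF h1 x a.1, fun v => der hF h1 x (a.2 v))

/-- supertrace -/
noncomputable def strO : OO hF h1 →ₗ[RR X] RR X where
  toFun a := LinearMap.trace (RR X) (AA hF h1) a.1 + cst X ((-1) ^ X.dim) * ∑ v, a.2 v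
  map_add' a b := by
    change LinearMap.trace (RR X) (AA hF h1) (a.1 + b.1) +
      cst X ((-1) ^ X.dim) * ∑ v, (a.2 v + b.2 v) = _
    rw [map_add, Finset.sum_add_distrib]
    ring
  map_smul' r a := by
    change LinearMap.trace (RR X) (AA hF h1) (r • a.1) +
      cst X ((-1) ^ X.dim) * ∑ v, (r * a.2 v) = r * _
    rw [map_smul, ← Finset.mul_sum, smul_eq_mul]
    ring

/-- the derivative of the genus one potential -/
noncomputable def GG : AA hF h1 →ₗ[RR X] RR X where
  toFun x := ∑ i, x i * ser (cor F 1 [hpow X i])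
  map_add' x y := by
    change ∑ i, (x i + y i) * _ = ∑ i, x i * _ + ∑ i, y i * _
    rw [← Finset.sum_add_distrib]
    exact Finset.sum_congr rfl fun i _ => by ring
  map_smul' r x := by
    change ∑ i, (r * x i) * _ = r * ∑ i, x i * _
    rw [Finset.mul_sum]
    exact Finset.sum_congr rfl fun i _ => by ring

/-- **[c5]** -/
theorem nabO_add (x : AA hF h1) (a b : OO hF h1) :
    nabO hF h1 x (a + b) = nabO hF h1 x a + nabO hF h1 x b := by
  sorry

/-- **[c5]** -/
theorem nabO_mul (x : AA hF h1) (a b : OO hF h1) :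
    nabO hF h1 x (a * b) = nabO hF h1 x a * b + a * nabO hF h1 x b := by
  sorry

/-- **[c5]** -/
theorem nabO_smul (x : AA hF h1) (g : RR X) (a : OO hF h1) :
    nabO hF h1 x (g • a) = der hF h1 x g • a + g • nabO hF h1 x a := by
  sorry

/-- **[c5]** -/
theorem nabO_mu (x : AA hF h1) : nabO hF h1 x (muO hF h1) = 0 := by
  sorry

/-- **[c5]** -/
theorem nabO_U (x : AA hF h1) : nabO hF h1 x (CC hF h1 (Eu hF h1)) =
    CC hF h1 x + CC hF h1 x * muO hF h1 - muO hF h1 * CC hF h1 x := by
  sorry

/-- **[c5]** -/
theorem c4O_symm (x y : AA hF h1) :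
    nabO hF h1 x (CC hF h1 y) - CC hF h1 (nab hF h1 x y) =
      nabO hF h1 y (CC hF h1 x) - CC hF h1 (nab hF h1 y x) := by
  sorry

/-- **[c5]** -/
theorem str_comm (a b : OO hF h1) : strO hF h1 (a * b) = strO hF h1 (b * a) := by
  sorry

/-- **[c5]** -/
theorem der_str (x : AA hF h1) (a : OO hF h1) :
    der hF h1 x (strO hF h1 a) = strO hF h1 (nabO hF h1 x a) := by
  sorry

/-- **[c6]** -/
theorem G_symm (x y : AA hF h1) : der hF h1 x (GG hF h1 y) - GG hF h1 (nab hF h1 x y) =
    der hF h1 y (GG hF h1 x) - GG hF h1 (nab hF h1 y x) := by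
  sorry

/-- **[c6]** string equation -/
theorem G_one : GG hF h1 1 = 0 := by
  sorry

/-- **[c6]** grading and divisor equation -/
theorem G_E : GG hF h1 (Eu hF h1) =
    cst X (-(index X : ℂ) / 24 * (deg X * chernCoeff X (X.dim - 1))) := by
  sorry

end Vale.Agent.P269.G1
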