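import Mathlib

/-!
# [ZA] the abstract recursion for the conjugated Virasoro operators
-/

namespace Vale.Agent.P269.G1

open Finset.HasAntidiagonal (antidiagonal)

section

variable (R : Type*) {O : Type*} [CommRing R] [Algebra ℚ R] [Ring O] [Algebra R O]

/-- rational numbers as elements of `O` -/
def kk (q : ℚ) : O := algebraMap R O (algebraMap ℚ R q)

/-- `D c K p`: the component `p` of `T^K δ_c`, `(T s)_p = (p - 1/2 + μ) s_{p-1} + U s_p` -/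
def DD (U mu : O) (c : ℤ) : ℕ → ℤ → O
  | 0, p => if p = c then 1 else 0
  | K + 1, p => (kk R ((p : ℚ) - 1 / 2) + mu) * DD U mu c K (p - 1) + U * DD U mu c K p

/-- `∑ i, S_{m+K-i-p} R^i ee_{m,K,i}` -/
def aK (S : ℤ → O) (Rc : O) (ee : ℤ → ℕ → ℕ → O) (m : ℤ) (K : ℕ) (p : ℤ) : O :=
  ∑ i ∈ Finset.range (K + 1), S (m + K - i - p) * Rc ^ i * ee m K i

/-- **[ZA1]** -/
theorem conj (U mu Rc : O) (S : ℤ → O) (T : ℕ → O) (ee : ℤ → ℕ → ℕ → O)
    (hS2 : ∀ n : ℤ, U * S (n - 1) = kk R n * S n + S n * mu - mu * S n + S (n - 1) * Rc)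
    (hR : mu * Rc = Rc * mu + Rc)
    (hneg : ∀ n < 0, S n = 0)
    (hU : ∀ p : ℕ, ∑ e ∈ antidiagonal p, (-1) ^ e.2 * (S e.1 * T e.2) = if p = 0 then 1 else 0)
    (e00 : ∀ m, ee m 0 0 = 1) (e0s : ∀ m i, ee m 0 (i + 1) = 0)
    (es0 : ∀ m K, ee m (K + 1) 0 = (mu + kk R ((m : ℚ) + 1 / 2 + K)) * ee m K 0)
    (ess : ∀ m K i, ee m (K + 1) (i + 1) =
      ee m K i + (mu + kk R ((m : ℚ) + 1 / 2 + K)) * ee m K (i + 1))
    (c p : ℤ) (K N : ℕ) (hN : c - p + K < N) :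
    ∑ n ∈ Finset.range N, (-1) ^ n * (aK S Rc ee (c - n) K p * T n) = DD R U mu c K p := by
  sorry

/-- **[ZA2]** -/
theorem DD_one_one (U mu : O) (K : ℕ) : DD R U mu 1 K 1 = U ^ K := by
  sorry

/-- **[ZA2]** -/
theorem DD_one_two (U mu : O) (K : ℕ) : DD R U mu 1 K 2 =
    ∑ e ∈ antidiagonal K, if e.1 = 0 then 0 else
      U ^ (e.1 - 1) * (kk R (3 / 2) + mu) * U ^ e.2 := by
  sorry

/-- **[ZA2]** -/
theorem DD_neg_one (U mu : O) (K : ℕ) : DD R U mu (-1) K 1 =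
    ∑ e ∈ antidiagonal K, if e.1 = 0 then 0 else
      ∑ f ∈ antidiagonal e.2, if f.1 = 0 then 0 else
        U ^ (e.1 - 1) * (kk R (1 / 2) + mu) * U ^ (f.1 - 1) *
          (kk R (-1 / 2) + mu) * U ^ f.2 := by
  sorry

/-- **[ZA3]** the cyclic identity behind the loop term -/
theorem loop_cyclic (str : O →ₗ[R] R)
    (hstr : ∀ a b, str (a * b) = str (b * a)) (U mu : O) (q : ℕ) :
    str (U * DD R U mu (-1) (q + 1) 1) = ((q : ℕ) : R) * ((1 / 2 : ℚ) •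
      (∑ e ∈ antidiagonal q, str (mu * U ^ e.1 * mu * U ^ e.2)) -
        ((q + 1 : ℕ) : R) * ((1 / 8 : ℚ) • str (U ^ q))) := by
  sorry

end

end Vale.Agent.P269.G1
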