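import Vale.Agent.P269.G1.Oper
import Vale.Agent.P269.G1.ZAbs

/-!
# [Z] the genus-one Virasoro constraints on the small phase space: definitions and leaves
-/

namespace Vale.Agent.P269.G1

open Finset.HasAntidiagonal (antidiagonal)
open Vale.Agent.P269.CI

variable {X : CompleteIntersection} {F : ℕ → ℕ → List (Ins X) → ℂ}

/-- two-point functions in genus zero on the small phase space -/
noncomputable def W (F : ℕ → ℕ → List (Ins X) → ℂ) (a b : Ins X) : RR X := ser (cor F 0 [a, b])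

variable (hF : IsGW X F) (h1 : IsGenusOne F)

/-- the endomorphism `e_i ↦ ∑ k, M i k e_k` -/
noncomputable def mkEnd (M : Fin (X.dim + 1) → Fin (X.dim + 1) → RR X) :
    Module.End (RR X) (AA hF h1) where
  toFun x := fun k => ∑ i, x i * M i k
  map_add' x y := by
    funext k
    change ∑ i, (x i + y i) * M i k = ∑ i, x i * M i k + ∑ i, y i * M i k
    rw [← Finset.sum_add_distrib]
    exact Finset.sum_congr rfl fun i _ => by ring
  map_smul' r x := by
    funext k
    change ∑ i, (r * x i) * M i k = r * ∑ i, x i * M i k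
    rw [Finset.mul_sum]
    exact Finset.sum_congr rfl fun i _ => by ring

/-- the two-point function of two primitive classes divided by the form -/
noncomputable def Lam (m n : ℕ) : RR X :=
  ser (fun d L => Classical.choose h1.mono2 m n d L)

/-- `S_n` -/
noncomputable def SS : ℕ → OO hF h1
  | 0 => 1
  | n + 1 => (mkEnd hF h1 (fun i k => ∑ b : Fin (X.dim + 1),
      pairingInv X (Sum.inl b) (Sum.inl k) • W F (Sum.inl i, n) (Sum.inl b, 0)),
      fun _ => Lam h1 n 0)

/-- the adjoint of `S_n` -/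
noncomputable def ST : ℕ → OO hF h1
  | 0 => 1
  | n + 1 => (mkEnd hF h1 (fun i k => ∑ b : Fin (X.dim + 1),
      pairingInv X (Sum.inl b) (Sum.inl k) • W F (Sum.inl b, n) (Sum.inl i, 0)),
      fun _ => Lam h1 n 0)

/-- `S_n` for integers `n` -/
noncomputable def SZ (n : ℤ) : OO hF h1 := if n < 0 then 0 else SS hF h1 n.toNat

/-- the classical multiplication by `c_1` -/
noncomputable def Rcl : OO hF h1 :=
  (mkEnd hF h1 (fun i k => cst X (c1 X (Sum.inl i) (Sum.inl k))), 0)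

/-- functions of `μ` -/
noncomputable def fmu (g : ℂ → ℂ) : OO hF h1 :=
  (mkEnd hF h1 (fun i k => if i = k then cst X (g (mu X (Sum.inl i))) else 0),
    fun v => cst X (g (mu X (Sum.inr v))))

/-- `[x]^{K-1}_i` at `x = μ + m + 1/2` -/
noncomputable def ee (m : ℤ) (K i : ℕ) : OO hF h1 :=
  fmu hF h1 (fun x => esym K i (x + (m : ℂ) + 1 / 2))

/-- **[ZB0]** -/
theorem mu_Rcl : muO hF h1 * Rcl hF h1 = Rcl hF h1 * muO hF h1 + Rcl hF h1 := by
  sorry

/-- **[ZB0]** -/
theorem ee_zero_zero (m : ℤ) : ee hF h1 m 0 0 = 1 := by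
  sorry

/-- **[ZB0]** -/
theorem ee_zero_succ (m : ℤ) (i : ℕ) : ee hF h1 m 0 (i + 1) = 0 := by
  sorry

/-- **[ZB0]** -/
theorem ee_succ_zero (m : ℤ) (K : ℕ) : ee hF h1 m (K + 1) 0 =
    (muO hF h1 + kk (RR X) ((m : ℚ) + 1 / 2 + K)) * ee hF h1 m K 0 := by
  sorry

/-- **[ZB0]** -/
theorem ee_succ_succ (m : ℤ) (K i : ℕ) : ee hF h1 m (K + 1) (i + 1) = ee hF h1 m K i +
    (muO hF h1 + kk (RR X) ((m : ℚ) + 1 / 2 + K)) * ee hF h1 m K (i + 1) := by
  sorry

/-- **[ZB1]** Euler equation for two-point functions: grading and divisor equation -/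
theorem W_euler (a b : Ix X) (m n : ℕ) :
    ∑ i, Eu hF h1 i * ser (cor F 0 [hpow X i, (a, m), (b, n)]) =
      (((m + n + 1 : ℕ) : ℂ) + mu X a + mu X b) • W F (a, m) (b, n) +
      (if m = 0 then 0 else ∑ c, c1 X a c • W F (c, m - 1) (b, n)) +
      (if n = 0 then 0 else ∑ c, c1 X b c • W F (a, m) (c, n - 1)) +
      (if m = 0 ∧ n = 0 then cst X (∑ c, c1 X a c * pairing X c b) else 0) := by
  sorry

/-- **[ZB2]** topological recursion: `∂_x W = (x * S_m a, S_n b)` for ambient `a`, `b` -/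
theorem W_trr (x a b : Fin (X.dim + 1)) (m n : ℕ) :
    ser (cor F 0 [hpow X x, (Sum.inl a, m), (Sum.inl b, n)]) =
      ∑ i, ∑ j, ((SS hF h1 m).1 (QA.bas _ a) : AA hF h1) i *
        ((SS hF h1 n).1 (QA.bas _ b) : AA hF h1) j *
          ser (cor F 0 [hpow X x, hpow X i, hpow X j]) := by
  sorry

/-- **[ZB2']** the same for primitive classes -/
theorem W_trr_prim (x : Fin (X.dim + 1)) (v w : X.Prim) (m n : ℕ) :
    ser (cor F 0 [hpow X x, (Sum.inr v, m), (Sum.inr w, n)]) =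
      X.form v w • ((SS hF h1 m).2 v * (SS hF h1 n).2 v * lamc h1 x) := by
  sorry

/-- **[ZB3]** unitarity: string equation and topological recursion, then a power series with
constant term one has a two-sided inverse -/
theorem SS_ST (p : ℕ) : ∑ e ∈ antidiagonal p, (-1) ^ e.2 * (SZ hF h1 e.1 * ST hF h1 e.2) =
    if p = 0 then 1 else 0 := by
  sorry

/-- **[ZB4]** from `W_euler` (`n = 0`) and `W_trr` -/
theorem SZ_euler (n : ℤ) : CC hF h1 (Eu hF h1) * SZ hF h1 (n - 1) =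
    kk (RR X) n * SZ hF h1 n + SZ hF h1 n * muO hF h1 -
      muO hF h1 * SZ hF h1 n + SZ hF h1 (n - 1) * Rcl hF h1 := by
  sorry

/-- the one-point function with the insertion `x z^n` -/
noncomputable def Gam (n : ℤ) (x : AA hF h1) : RR X :=
  GG hF h1 ((SZ hF h1 n).1 x) +
    (1 / 24 : ℂ) • strO hF h1 (CC hF h1 ((SZ hF h1 (n - 1)).1 x))

/-- **[ZC]** topological recursion in genus one -/
theorem cor_one (b : Fin (X.dim + 1)) (n : ℕ) :
    ser (cor F 1 [(Sum.inl b, n)]) = Gam hF h1 n (QA.bas _ b) := by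
  sorry

/-- the string equation: one-point functions in genus zero -/
theorem cor_string (hF : IsGW X F) (b : Fin (X.dim + 1)) (m : ℕ) :
    ser (cor F 0 [(Sum.inl b, m)]) = W F (Sum.inl b, m + 1) (Sum.inl 0, 0) := by
  sorry

/-- the genus zero part of `linTerm` and of the mixed products, as a series -/
noncomputable def linS (F : ℕ → ℕ → List (Ins X) → ℂ) (K : ℕ) (m : ℕ) (a : Fin (X.dim + 1)) :
    RR X :=
  ∑ i ∈ Finset.range (K + 1), ∑ b : Fin (X.dim + 1), if i + 1 ≤ m + K then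
    (esym K i ((m : ℂ) + 1 / 2 + mu X (Sum.inl a)) * c1pow X i (Sum.inl a) (Sum.inl b)) •
      ser (cor F 1 [(Sum.inl b, m + K - 1 - i)]) else 0

/-- the coefficients of the second order part -/
noncomputable def qco (X : CompleteIntersection) (K m i : ℕ) (a b c : Ix X) : ℂ :=
  (-1) ^ (m + 1) * esym K i (mu X a - m - 1 / 2) * pairingInv X a b * c1pow X i a c

/-- the mixed products -/
noncomputable def mixS (F : ℕ → ℕ → List (Ins X) → ℂ) (K : ℕ) : RR X :=
  ∑ m ∈ Finset.range (K - 1), ∑ i ∈ Finset.range (K - 1 - m),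
    ∑ a : Fin (X.dim + 1), ∑ b : Fin (X.dim + 1), ∑ c : Fin (X.dim + 1),
      qco X K m i (Sum.inl a) (Sum.inl b) (Sum.inl c) •
        (ser (cor F 0 [(Sum.inl b, m)]) * ser (cor F 1 [(Sum.inl c, K - 2 - m - i)]))

/-- the loop term -/
noncomputable def loopS (F : ℕ → ℕ → List (Ins X) → ℂ) (K : ℕ) : RR X :=
  (1 / 2 : ℂ) • ∑ m ∈ Finset.range (K - 1), ∑ i ∈ Finset.range (K - 1 - m), ∑ a, ∑ b, ∑ c,
      qco X K m i a b c • W F (c, K - 2 - m - i) (b, m)

/-- **[ZD1]** the symmetry of the coefficients under the exchange of the two insertions -/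
theorem qco_symm (K m i : ℕ) (h : m + i + 2 ≤ K) (b c : Fin (X.dim + 1)) :
    ∑ a : Fin (X.dim + 1), qco X K m i (Sum.inl a) (Sum.inl b) (Sum.inl c) =
      ∑ a : Fin (X.dim + 1), qco X K (K - 2 - m - i) i (Sum.inl a) (Sum.inl c) (Sum.inl b) := by
  sorry

/-- **[ZD2]** the series of the Virasoro coefficients -/
theorem ser_vir (hF : IsGW X F) (h1 : IsGenusOne F) (K : ℕ) (hK : 1 ≤ K) : ser (fun d L => virasoro X F K 1 d L) =
    ∑ k : Fin (X.dim + 1), MvPowerSeries.X k * linS F K 0 k - linS F K 1 0 + mixS F K +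
      loopS F K + (if K = 1 then cst X (str X (fun _ => 1) / 16 -
        str X (fun a => mu X a ^ 2) / 4) else 0) := by
  sorry

/-- **[ZE1]** -/
theorem linS_eq (K m : ℕ) (a : Fin (X.dim + 1)) : linS F K m a =
    ∑ i ∈ Finset.range (K + 1), Gam hF h1 ((m : ℤ) + K - 1 - i)
      ((Rcl hF h1 ^ i * ee hF h1 m K i).1 (QA.bas _ a)) := by
  sorry

/-- **[ZE2]** -/
theorem mixS_eq (K : ℕ) : mixS F K =
    ∑ m ∈ Finset.range (K - 1), (-1) ^ (m + 1) * ∑ i ∈ Finset.range (K + 1),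
      Gam hF h1 (-(m : ℤ) - 1 + K - 1 - i)
        ((Rcl hF h1 ^ i * ee hF h1 (-(m : ℤ) - 1) K i * ST hF h1 (m + 2)).1 1) := by
  sorry

/-- **[ZE3]** string equation -/
theorem ST_one_one (k : Fin (X.dim + 1)) :
    ((ST hF h1 1).1 1 : AA hF h1) k = MvPowerSeries.X k := by
  sorry

/-- **[ZF]** the loop term, from `W_euler`, `W_trr` and `conj` at `c = -1` -/
theorem loop_eq (q : ℕ) : ((q : ℕ) : RR X) * loopS F (q + 1) =
    - ((1 / 2 : ℂ) • strO hF h1 (CC hF h1 (Eu hF h1) *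
      DD (RR X) (CC hF h1 (Eu hF h1)) (muO hF h1) (-1) (q + 1) 1)) := by
  sorry

/-- **[ZG1]** the abstract recursion for the operators of `X` -/
theorem conj_X (c p : ℤ) (K N : ℕ) (hN : c - p + K < N) :
    ∑ n ∈ Finset.range N, (-1) ^ n * (aK (SZ hF h1) (Rcl hF h1) (ee hF h1) (c - n) K p *
      ST hF h1 n) = DD (RR X) (CC hF h1 (Eu hF h1)) (muO hF h1) c K p :=
  conj (RR X) _ _ _ _ _ _ (SZ_euler hF h1) (mu_Rcl hF h1)
    (fun n hn => by unfold SZ; rw [if_pos hn]) (SS_ST hF h1) (ee_zero_zero hF h1)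
    (ee_zero_succ hF h1) (ee_succ_zero hF h1) (ee_succ_succ hF h1) c p K N hN

/-- **[ZG2]** the linear part and the mixed products -/
theorem lin_mix (K : ℕ) (hK : 1 ≤ K) :
    ∑ k : Fin (X.dim + 1), MvPowerSeries.X k * linS F K 0 k - linS F K 1 0 + mixS F K =
      - (GG hF h1 ((DD (RR X) (CC hF h1 (Eu hF h1)) (muO hF h1) 1 K 1).1 1) + (1 / 24 : ℂ) •
        strO hF h1 (CC hF h1 ((DD (RR X) (CC hF h1 (Eu hF h1)) (muO hF h1) 1 K 2).1 1))) := by
  sorry

end Vale.Agent.P269.G1
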