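import Vale.Agent.P269.G1.Qc

/-!
# Stage 2: vector fields, connection, grading, Euler field
-/

namespace Vale.Agent.P269.G1

open Finset.HasAntidiagonal (antidiagonal)
open Vale.Agent.P269.CI

variable {X : CompleteIntersection} {F : ℕ → ℕ → List (Ins X) → ℂ}

/-- the structure constants -/
noncomputable def consts (hF : IsGW X F) (h1 : IsGenusOne F) : Consts X.dim (RR X) where
  c := qc F
  comm := qc_comm hF
  assoc := qc_assoc hF h1
  unit := qc_unit hF

/-- the ambient quantum algebra -/
abbrev AA (hF : IsGW X F) (h1 : IsGenusOne F) : Type := QA (consts hF h1)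

variable (hF : IsGW X F) (h1 : IsGenusOne F)

/-- derivative along a vector field -/
noncomputable def der (x : AA hF h1) (f : RR X) : RR X :=
  ∑ i, x i * MvPowerSeries.pderiv (PowerSeries ℂ) i f

/-- the flat connection -/
noncomputable def nab (x y : AA hF h1) : AA hF h1 := fun k => der hF h1 x (y k)

/-- the grading operator -/
noncomputable def dd : AA hF h1 →ₗ[RR X] AA hF h1 where
  toFun x := fun k => ((k : ℕ) : RR X) * x k
  map_add' x y := by
    funext k
    change _ * (x k + y k) = _ * x k + _ * y k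
    ring
  map_smul' r x := by
    funext k
    change _ * (r * x k) = r * (_ * x k)
    ring

/-- the Euler field `∑ (1-i) t_i e_i + ν e_1` -/
noncomputable def Eu : AA hF h1 := fun k =>
  (1 - ((k : ℕ) : RR X)) * MvPowerSeries.X k +
    if (k : ℕ) = 1 then ((index X : ℤ) : RR X) else 0

/-- `λ_i`: quantum multiplication by `h^i` on the primitive part -/
noncomputable def lamc (i : Fin (X.dim + 1)) : RR X :=
  ser (fun d L => Classical.choose h1.mono2 0 0 d (hpow X i :: L))

/-- constants -/
noncomputable def cst (X : CompleteIntersection) (c : ℂ) : RR X :=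
  MvPowerSeries.C (PowerSeries.C c)

/-- **[c2]** elementary rules -/
theorem der_add_left (x y : AA hF h1) (f : RR X) :
    der hF h1 (x + y) f = der hF h1 x f + der hF h1 y f := by
  sorry

theorem der_smul_left (g : RR X) (x : AA hF h1) (f : RR X) :
    der hF h1 (g • x) f = g * der hF h1 x f := by
  sorry

theorem der_add (x : AA hF h1) (f g : RR X) :
    der hF h1 x (f + g) = der hF h1 x f + der hF h1 x g := by
  sorry

theorem der_mul (x : AA hF h1) (f g : RR X) :
    der hF h1 x (f * g) = der hF h1 x f * g + f * der hF h1 x g := by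
  sorry

theorem der_rat (x : AA hF h1) (c : ℚ) (f : RR X) :
    der hF h1 x (c • f) = c • der hF h1 x f := by
  sorry

theorem nab_add_left (x y z : AA hF h1) :
    nab hF h1 (x + y) z = nab hF h1 x z + nab hF h1 y z := by
  sorry

theorem nab_smul_left (g : RR X) (x z : AA hF h1) :
    nab hF h1 (g • x) z = g • nab hF h1 x z := by
  sorry

theorem nab_add (x y z : AA hF h1) : nab hF h1 x (y + z) = nab hF h1 x y + nab hF h1 x z := by
  sorry

theorem nab_smul (x : AA hF h1) (g : RR X) (z : AA hF h1) :
    nab hF h1 x (g • z) = der hF h1 x g • z + g • nab hF h1 x z := by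
  sorry

theorem nab_one (x : AA hF h1) : nab hF h1 x 1 = 0 := by
  sorry

theorem der_comm (x y : AA hF h1) (f : RR X) :
    der hF h1 x (der hF h1 y f) - der hF h1 y (der hF h1 x f) =
      der hF h1 (nab hF h1 x y - nab hF h1 y x) f := by
  sorry

theorem d_one : dd hF h1 1 = 0 := by
  sorry

theorem nab_d (x y : AA hF h1) : nab hF h1 x (dd hF h1 y) = dd hF h1 (nab hF h1 x y) := by
  sorry

theorem nab_E (x : AA hF h1) : nab hF h1 x (Eu hF h1) = x - dd hF h1 x := by
  sorry

/-- **[c3]** -/
theorem c4_symm (x y z : AA hF h1) : nab hF h1 x (y * z) - nab hF h1 x y * z -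
    y * nab hF h1 x z = nab hF h1 y (x * z) - nab hF h1 y x * z - x * nab hF h1 y z := by
  sorry

/-- **[c3]** -/
theorem c5_symm (w x y z : AA hF h1) :
    nab hF h1 w (nab hF h1 x (y * z) - nab hF h1 x y * z - y * nab hF h1 x z)
      - (nab hF h1 (nab hF h1 w x) (y * z) - nab hF h1 (nab hF h1 w x) y * z
        - y * nab hF h1 (nab hF h1 w x) z)
      - (nab hF h1 x (nab hF h1 w y * z) - nab hF h1 x (nab hF h1 w y) * z
        - nab hF h1 w y * nab hF h1 x z)
      - (nab hF h1 x (y * nab hF h1 w z) - nab hF h1 x y * nab hF h1 w z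
        - y * nab hF h1 x (nab hF h1 w z)) =
    nab hF h1 x (nab hF h1 w (y * z) - nab hF h1 w y * z - y * nab hF h1 w z)
      - (nab hF h1 (nab hF h1 x w) (y * z) - nab hF h1 (nab hF h1 x w) y * z
        - y * nab hF h1 (nab hF h1 x w) z)
      - (nab hF h1 w (nab hF h1 x y * z) - nab hF h1 w (nab hF h1 x y) * z
        - nab hF h1 x y * nab hF h1 w z)
      - (nab hF h1 w (y * nab hF h1 x z) - nab hF h1 w y * nab hF h1 x z
        - y * nab hF h1 w (nab hF h1 x z)) := by
  sorry

/-- **[c4]** from the grading equation -/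
theorem c4_E (x y : AA hF h1) : nab hF h1 x (Eu hF h1 * y) - nab hF h1 x (Eu hF h1) * y -
    Eu hF h1 * nab hF h1 x y = x * dd hF h1 y + y * dd hF h1 x - dd hF h1 (x * y) := by
  sorry

/-- **[c8]** -/
theorem lamc_zero (v : X.Prim) : lamc h1 0 = 1 := by
  sorry

/-- **[c8]** WDVV with two primitive classes -/
theorem lamc_mul (v : X.Prim) (i j : Fin (X.dim + 1)) :
    lamc h1 i * lamc h1 j = ∑ k, qc F i j k * lamc h1 k := by
  sorry

/-- **[c8]** -/
theorem pderiv_lamc (v : X.Prim) (i j : Fin (X.dim + 1)) :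
    MvPowerSeries.pderiv (PowerSeries ℂ) i (lamc h1 j) =
      MvPowerSeries.pderiv (PowerSeries ℂ) j (lamc h1 i) := by
  sorry

/-- **[c8]** from the grading equation -/
theorem der_lamc_E (v : X.Prim) (x : AA hF h1) :
    der hF h1 x (∑ i, Eu hF h1 i * lamc h1 i) = ∑ i, x i * lamc h1 i := by
  sorry

/-- **[c8]** from WDVV with four primitive classes -/
theorem lamc_isotropic (v : X.Prim) (hv : 2 * X.hodgeP v ≠ X.dim) :
    ∑ i, ∑ j, pairingInv X (Sum.inl i) (Sum.inl j) • (lamc h1 i * lamc h1 j) = 0 := by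
  sorry

end Vale.Agent.P269.G1
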