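import Vale.Agent.P269.G1.Ser

/-!
# Stage 1: structure constants of the ambient quantum product
-/

namespace Vale.Agent.P269.G1

open Finset.HasAntidiagonal (antidiagonal)
open Vale.Agent.P269.CI

variable {X : CompleteIntersection}

/-- structure constants of the quantum product on the ambient part -/
noncomputable def qc (F : ℕ → ℕ → List (Ins X) → ℂ) (i j k : Fin (X.dim + 1)) : RR X :=
  ∑ l : Fin (X.dim + 1),
    pairingInv X (Sum.inl l) (Sum.inl k) • ser (cor F 0 [hpow X i, hpow X j, hpow X l])

variable {F : ℕ → ℕ → List (Ins X) → ℂ}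

/-- **[c0]** correlators with ambient or even prefix are symmetric in the ambient list -/
theorem symS_cor (hF : IsGW X F) (g : ℕ) (P : List (Ins X)) : SymS (cor F g P) := by
  sorry

/-- **[c0]** -/
theorem pderiv_cor (hF : IsGW X F) (g : ℕ) (P : List (Ins X)) (i : Fin (X.dim + 1)) :
    MvPowerSeries.pderiv (PowerSeries ℂ) i (ser (cor F g P)) = ser (cor F g (hpow X i :: P)) := by
  sorry

/-- **[c1a]** -/
theorem qc_comm (hF : IsGW X F) (i j k : Fin (X.dim + 1)) : qc F i j k = qc F j i k := by
  sorry

/-- **[c1b]** WDVV -/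
theorem qc_assoc (hF : IsGW X F) (h1 : IsGenusOne F) (i j l m : Fin (X.dim + 1)) :
    ∑ k, qc F i j k * qc F k l m = ∑ k, qc F j l k * qc F i k m := by
  sorry

/-- **[c1c]** -/
theorem qc_unit (hF : IsGW X F) (j k : Fin (X.dim + 1)) :
    qc F 0 j k = if j = k then 1 else 0 := by
  sorry

end Vale.Agent.P269.G1
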