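import Vale.Agent.P269.G1.Defs

/-!
# Formal power series from symmetric functions of lists; algebras from structure constants
-/

namespace Vale.Agent.P269.G1

open Finset.HasAntidiagonal (antidiagonal)
open Vale.Agent.P269.CI

section gen

variable {n : ℕ} {K : Type*} [CommRing K] [Algebra ℚ K]

/-- the sorted list with multiplicities `α` -/
def lst (α : Fin n →₀ ℕ) : List (Fin n) :=
  (List.finRange n).flatMap fun i => List.replicate (α i) i

/-- the power series with the given iterated derivatives at the origin -/
noncomputable def toSer (A : List (Fin n) → K) : MvPowerSeries (Fin n) K :=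
  fun α => ((∏ i, (α i).factorial : ℕ) : ℚ)⁻¹ • A (lst α)

/-- symmetric functions of lists -/
def Sym (A : List (Fin n) → K) : Prop := ∀ L M, L.Perm M → A L = A M

/-- product of coefficient functions -/
def shf : List (Fin n) → (List (Fin n) → K) → (List (Fin n) → K) → K
  | [], A, B => A [] * B []
  | i :: L, A, B => shf L (fun M => A (i :: M)) B + shf L A (fun M => B (i :: M))

/-- **[B1a]** -/
theorem pderiv_toSer (A : List (Fin n) → K) (hA : Sym A) (i : Fin n) :
    MvPowerSeries.pderiv K i (toSer A) = toSer (fun L => A (i :: L)) := by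
  sorry

/-- **[B1b]** -/
theorem toSer_mul (A B : List (Fin n) → K) (hA : Sym A) (hB : Sym B) :
    toSer A * toSer B = toSer (fun L => shf L A B) := by
  sorry

/-- **[B1c]** -/
theorem toSer_inj (A B : List (Fin n) → K) (hA : Sym A) (hB : Sym B) (h : toSer A = toSer B) :
    A = B := by
  sorry

theorem toSer_add (A B : List (Fin n) → K) : toSer (A + B) = toSer A + toSer B := by
  funext α
  exact smul_add ((∏ i, (α i).factorial : ℕ) : ℚ)⁻¹ (A (lst α)) (B (lst α))

theorem constantCoeff_toSer (A : List (Fin n) → K) :
    MvPowerSeries.constantCoeff (toSer A) = A [] := by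
  sorry

end gen

section ser

variable {X : CompleteIntersection}

/-- functions on the small ambient phase space, with Novikov variable -/
abbrev RR (X : CompleteIntersection) := MvPowerSeries (Fin (X.dim + 1)) (PowerSeries ℂ)

/-- the function with the given coefficients -/
noncomputable def ser (A : ℕ → List (Ins X) → ℂ) : RR X :=
  toSer fun L => PowerSeries.mk fun d => A d (L.map (hpow X))

/-- symmetric on ambient lists -/
def SymS (A : ℕ → List (Ins X) → ℂ) : Prop :=
  ∀ d (L M : List (Fin (X.dim + 1))), L.Perm M → A d (L.map (hpow X)) = A d (M.map (hpow X))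

/-- **[B2]** -/
theorem ser_mulS (A B : ℕ → List (Ins X) → ℂ) (hA : SymS A) (hB : SymS B) :
    ser (mulS A B) = ser A * ser B := by
  sorry

/-- **[B2']** -/
theorem ser_inj (A B : ℕ → List (Ins X) → ℂ) (hA : SymS A) (hB : SymS B) (h : ser A = ser B)
    (d : ℕ) (L : List (Fin (X.dim + 1))) : A d (L.map (hpow X)) = B d (L.map (hpow X)) := by
  sorry

/-- **[B2'']** -/
theorem pderiv_ser (A : ℕ → List (Ins X) → ℂ) (hA : SymS A) (i : Fin (X.dim + 1)) :
    MvPowerSeries.pderiv (PowerSeries ℂ) i (ser A) = ser (fun d L => A d (hpow X i :: L)) := by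
  sorry

end ser

section QA

/-- structure constants of a commutative associative algebra with unit `e_0` -/
structure Consts (n : ℕ) (R : Type*) [CommRing R] where
  c : Fin (n + 1) → Fin (n + 1) → Fin (n + 1) → R
  comm : ∀ i j k, c i j k = c j i k
  assoc : ∀ i j l m, ∑ k, c i j k * c k l m = ∑ k, c j l k * c i k m
  unit : ∀ j k, c 0 j k = if j = k then 1 else 0

variable {n : ℕ} {R : Type*} [CommRing R]

/-- the algebra with the given structure constants -/
def QA (_S : Consts n R) : Type _ := Fin (n + 1) → R

variable (S : Consts n R)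

instance : AddCommGroup (QA S) := inferInstanceAs (AddCommGroup (Fin (n + 1) → R))
instance : Module R (QA S) := inferInstanceAs (Module R (Fin (n + 1) → R))

noncomputable instance : Mul (QA S) :=
  ⟨fun x y => fun k => ∑ i, ∑ j, x i * y j * S.c i j k⟩

instance : One (QA S) := ⟨fun k => if k = 0 then 1 else 0⟩

theorem QA.mul_def (x y : QA S) (k : Fin (n + 1)) :
    (x * y : QA S) k = ∑ i, ∑ j, x i * y j * S.c i j k := rfl

theorem QA.one_def (k : Fin (n + 1)) : (1 : QA S) k = if k = 0 then 1 else 0 := rfl

theorem QA.add_apply (x y : QA S) (k : Fin (n + 1)) : (x + y : QA S) k = x k + y k := rfl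

theorem QA.smul_apply (r : R) (x : QA S) (k : Fin (n + 1)) : (r • x : QA S) k = r * x k := rfl

theorem QA.mul_comm' (x y : QA S) : x * y = y * x := by
  funext k
  rw [QA.mul_def, QA.mul_def, Finset.sum_comm]
  refine Finset.sum_congr rfl fun i _ => Finset.sum_congr rfl fun j _ => ?_
  rw [S.comm j i k]; ring

theorem QA.mul_assoc' (x y z : QA S) : x * y * z = x * (y * z) := by
  funext m
  have h1 : (x * y * z : QA S) m =
      ∑ i, ∑ j, ∑ l, x i * y j * z l * ∑ k, S.c i j k * S.c k l m := by
    rw [QA.mul_def]
    simp only [QA.mul_def, Finset.sum_mul, Finset.mul_sum]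
    rw [Finset.sum_comm]
    conv_lhs => enter [2, l]; rw [Finset.sum_comm]
    rw [Finset.sum_comm]
    refine Finset.sum_congr rfl fun i _ => ?_
    conv_lhs => enter [2, l]; rw [Finset.sum_comm]
    rw [Finset.sum_comm]
    refine Finset.sum_congr rfl fun j _ => Finset.sum_congr rfl fun l _ =>
      Finset.sum_congr rfl fun k _ => ?_
    ring
  have h2 : (x * (y * z) : QA S) m =
      ∑ i, ∑ j, ∑ l, x i * y j * z l * ∑ k, S.c j l k * S.c i k m := by
    rw [QA.mul_def]
    simp only [QA.mul_def, Finset.sum_mul, Finset.mul_sum]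
    refine Finset.sum_congr rfl fun i _ => ?_
    rw [Finset.sum_comm]
    refine Finset.sum_congr rfl fun j _ => ?_
    rw [Finset.sum_comm]
    refine Finset.sum_congr rfl fun l _ => Finset.sum_congr rfl fun k _ => ?_
    ring
  rw [h1, h2]
  refine Finset.sum_congr rfl fun i _ => Finset.sum_congr rfl fun j _ =>
    Finset.sum_congr rfl fun l _ => ?_
  rw [S.assoc i j l m]

theorem QA.one_mul' (x : QA S) : 1 * x = x := by
  funext k
  rw [QA.mul_def, Finset.sum_eq_single 0]
  · simp only [QA.one_def, if_true, one_mul, S.unit]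
    rw [Finset.sum_eq_single k]
    · simp
    · intro b _ hb
      simp [hb]
    · simp
  · intro i _ hi
    simp [QA.one_def, hi]
  · simp

theorem QA.left_distrib' (x y z : QA S) : x * (y + z) = x * y + x * z := by
  funext k
  simp only [QA.mul_def, QA.add_apply, mul_add, add_mul, Finset.sum_add_distrib]

theorem QA.smul_mul' (r : R) (x y : QA S) : (r • x) * y = r • (x * y) := by
  funext k
  simp only [QA.mul_def, QA.smul_apply, Finset.mul_sum]
  refine Finset.sum_congr rfl fun i _ => Finset.sum_congr rfl fun j _ => ?_
  ring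

noncomputable instance : CommRing (QA S) :=
  { (inferInstance : AddCommGroup (QA S)) with
    mul := (· * ·)
    one := 1
    mul_comm := QA.mul_comm' S
    mul_assoc := QA.mul_assoc' S
    one_mul := QA.one_mul' S
    mul_one := fun x => by rw [QA.mul_comm' S, QA.one_mul' S]
    left_distrib := QA.left_distrib' S
    right_distrib := fun x y z => by
      rw [QA.mul_comm' S, QA.left_distrib' S, QA.mul_comm' S z x, QA.mul_comm' S z y]
    zero_mul := fun x => by
      funext k
      rw [QA.mul_def]
      refine Finset.sum_eq_zero fun i _ => Finset.sum_eq_zero fun j _ => ?_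
      change (0 : R) * x j * S.c i j k = 0
      ring
    mul_zero := fun x => by
      funext k
      rw [QA.mul_def]
      refine Finset.sum_eq_zero fun i _ => Finset.sum_eq_zero fun j _ => ?_
      change x i * (0 : R) * S.c i j k = 0
      ring }

noncomputable instance : Algebra R (QA S) :=
  Algebra.ofModule (QA.smul_mul' S) (fun r x y => by
    rw [mul_comm, QA.smul_mul' S, mul_comm])

/-- the basis `e_i` -/
noncomputable def QA.bas : Module.Basis (Fin (n + 1)) R (QA S) := Pi.basisFun R (Fin (n + 1))

theorem QA.bas_apply (i k : Fin (n + 1)) : (QA.bas S i : QA S) k = if k = i then 1 else 0 := by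
  change (Pi.basisFun R (Fin (n + 1)) i) k = _
  simp [Pi.single_apply]

theorem QA.bas_mul (i j : Fin (n + 1)) :
    (QA.bas S i * QA.bas S j : QA S) = ∑ k, S.c i j k • QA.bas S k := by
  funext m
  rw [QA.mul_def, Finset.sum_eq_single i, Finset.sum_eq_single j]
  · have h : (∑ k, S.c i j k • QA.bas S k : QA S) m = ∑ k, S.c i j k * QA.bas S k m := by
      have := Finset.sum_apply (M := fun _ : Fin (n + 1) => R) m Finset.univ
        (fun k => (S.c i j k • QA.bas S k : QA S))
      exact this
    rw [h]
    simp [QA.bas_apply]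
  · intro b _ hb
    simp [QA.bas_apply, hb]
  · simp
  · intro b _ hb
    refine Finset.sum_eq_zero fun j' _ => ?_
    simp [QA.bas_apply, hb]
  · simp

end QA

end Vale.Agent.P269.G1
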